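import Vale.Agent.P027.B.Tools

set_option linter.all false

/-! P027: the arithmetic of the rational numbers is computable in the coding of Mathlib. -/

namespace Vale.Agent.N027

open Vale.Agent.P027.B Denumerable MvPolynomial

section gen

variable {α β : Type} [Primcodable α] [Primcodable β]

theorem cp_of_prim {p : α → Prop} (h : PrimrecPred p) : ComputablePred p := h.computablePred

theorem cp_eq {f g : α → β} (hf : Computable f) (hg : Computable g) :
    ComputablePred fun a => f a = g a :=
  cp_comp (p := fun a : β × β => a.1 = a.2) (cp_of_prim Primrec.eq) (hf.pair hg)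

theorem cp_lt {f g : α → ℕ} (hf : Computable f) (hg : Computable g) :
    ComputablePred fun a => f a < g a :=
  cp_comp (p := fun a : ℕ × ℕ => a.1 < a.2) (cp_of_prim Primrec.nat_lt) (hf.pair hg)

/-- least witnesses are computable -/
theorem cp_find {p : α → ℕ → Prop} (hp : ComputablePred fun a : α × ℕ => p a.1 a.2) {g : α → ℕ}
    (h1 : ∀ a, p a (g a)) (h2 : ∀ a m, m < g a → ¬ p a m) : Computable g := by
  obtain ⟨f, hf, hfp⟩ := ComputablePred.computable_iff.1 hp
  have hf' : ∀ a n, (p a n ↔ f (a, n) = true) := fun a n => by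
    have := congrFun hfp (a, n)
    simp only at this
    rw [this]
  have h : Partrec (fun a => Nat.rfind fun n => (Part.some (f (a, n)) : Part Bool)) :=
    Partrec.rfind (hf.partrec)
  refine h.of_eq_tot fun a => ?_
  refine (Nat.mem_rfind (p := fun n => (Part.some (f (a, n)) : Part Bool))).2 ⟨?_, fun {m} hm => ?_⟩
  · simpa using ((hf' a _).1 (h1 a))
  · have := h2 a m hm
    rw [hf'] at this
    simpa using this

theorem comp_fin {n : ℕ} {f : α → Fin n → β} (h : ∀ i, Computable fun a => f a i) :
    Computable f :=
  (Primrec.vector_get'.to_comp.comp (Computable.vector_ofFn h)).of_eq fun a => by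
    funext i
    simp

theorem comp_app {n : ℕ} {f : α → Fin n → β} (h : Computable f) (i : Fin n) :
    Computable fun a => f a i :=
  Computable.fin_app.comp h (Computable.const i)

theorem comp_count {p : ℕ → Prop} [DecidablePred p] (hp : ComputablePred p) :
    Computable (Nat.count p) := by
  obtain ⟨f, hf, hfp⟩ := ComputablePred.computable_iff.1 hp
  have hf' : ∀ n, (p n ↔ f n = true) := fun n => by rw [hfp]
  have h := Computable.nat_rec (f := fun n : ℕ => n) (g := fun _ => (0 : ℕ))
    (h := fun _ (q : ℕ × ℕ) => cond (f q.1) (q.2 + 1) q.2) Computable.id (Computable.const 0)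
    (Computable.cond (hf.comp (Computable.fst.comp Computable.snd))
      (Computable.succ.comp (Computable.snd.comp Computable.snd))
      (Computable.snd.comp Computable.snd)).to₂
  refine h.of_eq fun n => ?_
  induction n with
  | zero => simp
  | succ n ih =>
    rw [Nat.count_succ, ← ih]
    by_cases h : p n
    · simp [h, (hf' n).1 h]
    · have : f n = false := by simpa using fun e => h ((hf' n).2 e)
      simp [h, this]

theorem comp_nth {p : ℕ → Prop} (hp : ComputablePred p) (hi : (setOf p).Infinite) :
    Computable (Nat.nth p) := by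
  classical
  refine cp_find (p := fun n m => n < Nat.count p (m + 1))
    (cp_lt Computable.fst ((comp_count hp).comp (Computable.succ.comp Computable.snd)))
    (fun n => (Nat.lt_nth_iff_count_lt hi).2 (Nat.lt_succ_self _)) fun n m hm h => ?_
  have := (Nat.lt_nth_iff_count_lt hi).1 h
  omega

end gen

theorem prim_natAbs : Primrec (fun z : ℤ => z.natAbs) :=
  (Primrec.nat_add.comp primrec_toNat primrec_negToNat).of_eq fun z => by omega

/-- the code of a fraction in lowest terms -/
def e0 (q : ℚ) : ℕ := Nat.pair (Equiv.intEquivNat q.num) q.den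

theorem e0_eq : @Encodable.encode ℚ Rat.instEncodable = e0 := by
  funext q
  rfl

theorem mem_e0 (m : ℕ) : m ∈ Set.range e0 ↔
    0 < m.unpair.2 ∧ (ofNat ℤ m.unpair.1).natAbs.Coprime m.unpair.2 := by
  constructor
  · rintro ⟨q, rfl⟩
    have e : ofNat ℤ (Equiv.intEquivNat q.num) = q.num := ofNat_encode q.num
    simp only [e0, Nat.unpair_pair, e]
    exact ⟨q.den_pos, q.reduced⟩
  · rintro ⟨h1, h2⟩
    refine ⟨⟨ofNat ℤ m.unpair.1, m.unpair.2, h1.ne', h2⟩, ?_⟩
    have e : Equiv.intEquivNat (ofNat ℤ m.unpair.1) = m.unpair.1 := encode_ofNat (α := ℤ) _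
    simp only [e0, e, Nat.pair_unpair]

theorem cp_cop : ComputablePred fun a : ℕ × ℕ => 0 < a.2 ∧ a.1.Coprime a.2 := by
  have hm : ∀ {f : (ℕ × ℕ) × ℕ → ℕ}, Computable f →
      ComputablePred fun a : (ℕ × ℕ) × ℕ => f a % a.2 = 0 := fun hf =>
    cp_eq (Primrec.nat_mod.to_comp.comp hf Computable.snd) (Computable.const 0)
  have h := cp_all (p := fun (a : ℕ × ℕ) d => a.1 % d = 0 ∧ a.2 % d = 0 → d = 1)
    (cp_imp (cp_and (hm (Computable.fst.comp Computable.fst))
      (hm (Computable.snd.comp Computable.fst))) (cp_eq Computable.snd (Computable.const 1)))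
    (f := fun a => a.2 + 1) (Computable.succ.comp Computable.snd)
  refine (cp_and (cp_lt (Computable.const 0) Computable.snd) h).of_eq fun a => ?_
  refine and_congr_right fun h0 => ⟨fun h => ?_, fun h d _ hd => ?_⟩
  · exact h _ (Nat.lt_succ_of_le (Nat.gcd_le_right _ h0))
      ⟨Nat.mod_eq_zero_of_dvd (Nat.gcd_dvd_left _ _), Nat.mod_eq_zero_of_dvd (Nat.gcd_dvd_right _ _)⟩
  · exact Nat.eq_one_of_dvd_coprimes h (Nat.dvd_of_mod_eq_zero hd.1) (Nat.dvd_of_mod_eq_zero hd.2)

theorem cp_range : ComputablePred fun m => m ∈ Set.range e0 :=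
  (cp_comp cp_cop (f := fun m : ℕ => ((ofNat ℤ m.unpair.1).natAbs, m.unpair.2))
    ((prim_natAbs.comp ((Primrec.ofNat ℤ).comp (Primrec.fst.comp Primrec.unpair))).pair
      (Primrec.snd.comp Primrec.unpair)).to_comp).of_eq fun m => (mem_e0 m).symm

theorem sub_nth (s : Set ℕ) [DecidablePred (· ∈ s)] [Infinite s] (n : ℕ) :
    (Nat.Subtype.ofNat s n : ℕ) = Nat.nth (· ∈ s) n := by
  have hi : (setOf (· ∈ s)).Infinite := Set.infinite_coe_iff.1 ‹_›
  have h1 : StrictMono ((↑) ∘ Nat.Subtype.ofNat s : ℕ → ℕ) :=
    strictMono_nat_of_lt_succ fun n => Nat.Subtype.lt_succ_self (Nat.Subtype.ofNat s n)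
  have h2 := (h1.range_inj (Nat.nth_strictMono hi)).1
    (Nat.Subtype.coe_comp_ofNat_range.trans (Nat.range_nth_of_infinite hi).symm)
  exact congrFun h2 n

theorem gen_nth (α : Type) [E : Encodable α] [Infinite α] (n : ℕ) :
    @Encodable.encode α E (@ofNat α (ofEncodableOfInfinite α) n) =
      Nat.nth (· ∈ Set.range (@Encodable.encode α E)) n := by
  letI := @Encodable.decidableRangeEncode α _
  letI : Infinite (Set.range (@Encodable.encode α E)) :=
    Infinite.of_injective _ (Equiv.ofInjective _ Encodable.encode_injective).injective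
  letI := Nat.Subtype.denumerable (Set.range (@Encodable.encode α E))
  have h1 := ofEquiv_ofNat (Set.range (@Encodable.encode α E)) (Encodable.equivRangeEncode α) n
  have h2 : ofNat (Set.range (@Encodable.encode α E)) n = Nat.Subtype.ofNat _ n :=
    ofEquiv_ofNat ℕ _ n
  rw [← sub_nth, ← h2]
  refine Eq.trans (congrArg _ h1) ?_
  exact congrArg Subtype.val ((Encodable.equivRangeEncode α).apply_symm_apply _)

theorem comp_e0 : Computable e0 := by
  have hi : (setOf (· ∈ Set.range e0)).Infinite := by
    refine Set.infinite_range_of_injective (f := e0) ?_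
    rw [← e0_eq]
    exact @Encodable.encode_injective ℚ Rat.instEncodable
  refine ((comp_nth cp_range hi).comp Computable.encode).of_eq fun q => ?_
  have h := @gen_nth ℚ Rat.instEncodable _ (@Encodable.encode ℚ Rat.instDenumerable.toEncodable q)
  rw [e0_eq] at h
  refine h.symm.trans ?_
  exact congrArg e0 (ofNat_encode q)

theorem comp_num : Computable Rat.num :=
  ((Computable.ofNat ℤ).comp (Computable.fst.comp (Computable.unpair.comp comp_e0))).of_eq
    fun q => by
      simp only [e0, Nat.unpair_pair]
      exact ofNat_encode q.num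

theorem comp_den : Computable Rat.den :=
  (Computable.snd.comp (Computable.unpair.comp comp_e0)).of_eq fun q => by
    simp only [e0, Nat.unpair_pair]

section rat

variable {α : Type} [Primcodable α]

theorem zmul {f g : α → ℤ} (hf : Computable f) (hg : Computable g) :
    Computable fun a => f a * g a := primrec_int_mul.to_comp.comp hf hg

theorem zadd {f g : α → ℤ} (hf : Computable f) (hg : Computable g) :
    Computable fun a => f a + g a := primrec_int_add.to_comp.comp hf hg

theorem zden {f : α → ℚ} (hf : Computable f) : Computable fun a => ((f a).den : ℤ) :=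
  primrec_int_cast.to_comp.comp (comp_den.comp hf)

/-- a rational valued function given by a quotient of computable integers is computable -/
theorem comp_rat {g : α → ℚ} {u v : α → ℤ} (hu : Computable u) (hv : Computable v)
    (h0 : ∀ a, v a ≠ 0) (h : ∀ a, g a * v a = u a) : Computable g := by
  have key : ∀ a (q : ℚ), q.num * v a = u a * q.den ↔ q = g a := fun a q => by
    have h1 : (v a : ℚ) ≠ 0 := by exact_mod_cast h0 a
    have h2 : (q.den : ℚ) ≠ 0 := by exact_mod_cast q.den_nz
    have h3 : (q.num : ℚ) = q * q.den := (Rat.mul_den_eq_num q).symm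
    rw [← Int.cast_inj (α := ℚ)]
    push_cast
    rw [h3, ← h a]
    constructor
    · intro e
      refine mul_right_cancel₀ h1 (mul_right_cancel₀ h2 ?_)
      linear_combination e
    · rintro rfl
      ring
  have hq : Computable fun a : α × ℕ => ofNat ℚ a.2 := (Computable.ofNat ℚ).comp Computable.snd
  have h1 := cp_find (p := fun a n => (ofNat ℚ n).num * v a = u a * (ofNat ℚ n).den)
    (cp_eq (zmul (comp_num.comp hq) (hv.comp Computable.fst))
      (zmul (hu.comp Computable.fst) (zden hq)))
    (g := fun a => @Encodable.encode ℚ Rat.instDenumerable.toEncodable (g a))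
    (fun a => (key a _).2 (ofNat_encode _)) fun a m hm e => by
      rw [key] at e
      rw [← e, encode_ofNat] at hm
      exact lt_irrefl _ hm
  exact ((Computable.ofNat ℚ).comp h1).of_eq fun a => ofNat_encode _

theorem qadd {f g : α → ℚ} (hf : Computable f) (hg : Computable g) :
    Computable fun a => f a + g a := by
  refine comp_rat (zadd (zmul (comp_num.comp hf) (zden hg)) (zmul (comp_num.comp hg) (zden hf)))
    (zmul (zden hf) (zden hg)) (fun a => ?_) fun a => ?_
  · exact mul_ne_zero (by exact_mod_cast (f a).den_nz) (by exact_mod_cast (g a).den_nz)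
  · push_cast
    rw [← Rat.mul_den_eq_num (f a), ← Rat.mul_den_eq_num (g a)]
    ring

theorem qmul {f g : α → ℚ} (hf : Computable f) (hg : Computable g) :
    Computable fun a => f a * g a := by
  refine comp_rat (zmul (comp_num.comp hf) (comp_num.comp hg))
    (zmul (zden hf) (zden hg)) (fun a => ?_) fun a => ?_
  · exact mul_ne_zero (by exact_mod_cast (f a).den_nz) (by exact_mod_cast (g a).den_nz)
  · push_cast
    rw [← Rat.mul_den_eq_num (f a), ← Rat.mul_den_eq_num (g a)]
    ring

theorem comp_aeval {σ : Type} {y : α → σ → ℚ} (hy : ∀ i, Computable fun a => y a i)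
    (g : MvPolynomial σ ℤ) : Computable fun a => aeval (y a) g := by
  induction g using MvPolynomial.induction_on with
  | C c => exact (Computable.const (c : ℚ)).of_eq fun a => by simp
  | add p q hp hq => exact (qadd hp hq).of_eq fun a => by simp
  | mul_X p i hp => exact (qmul hp (hy i)).of_eq fun a => by simp

end rat

/-- Diophantine sets of rational vectors are recursively enumerable -/
theorem re_of_dio {k m : ℕ} (g : MvPolynomial (Fin k ⊕ Fin m) ℤ) :
    REPred fun x : Fin k → ℚ => ∃ y : Fin m → ℚ, aeval (Sum.elim x y) g = 0 := by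
  refine re_ex (p := fun (x : Fin k → ℚ) (y : Fin m → ℚ) => aeval (Sum.elim x y) g = 0)
    (cp_eq (comp_aeval (y := fun a : (Fin k → ℚ) × (Fin m → ℚ) => Sum.elim a.1 a.2) ?_ g)
      (Computable.const 0))
  rintro (i | i)
  · exact comp_app Computable.fst i
  · exact comp_app Computable.snd i

end Vale.Agent.N027
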