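import Vale.Agent.P027.B.Poly

set_option linter.all false

/-! P027: polynomial equations as systems of equations `x + y = z`, `x y = z`, `x = 1`. -/

namespace Vale.Agent.N027

open MvPolynomial Vale.Agent.P027.B

/-- systems of atomic equations -/
abbrev Sys : Type := List (ℕ × ℕ × ℕ) × List (ℕ × ℕ × ℕ) × List ℕ

/-- solutions -/
def Sol (S : Sys) (x : ℕ → ℚ) : Prop :=
  (∀ e ∈ S.1, x e.1 + x e.2.1 = x e.2.2) ∧ (∀ e ∈ S.2.1, x e.1 * x e.2.1 = x e.2.2) ∧
    ∀ i ∈ S.2.2, x i = 1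

section slp

variable {σ : Type}

/-- straight line programs -/
inductive SLP : List (MvPolynomial σ ℤ) → Prop
  | nil : SLP []
  | one {l} : SLP l → SLP (1 :: l)
  | var {l} (i : σ) : SLP l → SLP (X i :: l)
  | add {l a b} : SLP l → a ∈ l → b ∈ l → SLP ((a + b) :: l)
  | sub {l a b} : SLP l → a ∈ l → b ∈ l → SLP ((a - b) :: l)
  | mul {l a b} : SLP l → a ∈ l → b ∈ l → SLP ((a * b) :: l)

/-- `h` can be added to every program -/
def Reach (h : MvPolynomial σ ℤ) : Prop := ∀ l, SLP l → ∃ l', SLP l' ∧ h ∈ l' ∧ l ⊆ l'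

theorem Reach.two {a b : MvPolynomial σ ℤ} (ha : Reach a) (hb : Reach b) {l} (hl : SLP l) :
    ∃ l', SLP l' ∧ a ∈ l' ∧ b ∈ l' ∧ l ⊆ l' := by
  obtain ⟨l1, h1, h2, h3⟩ := ha l hl
  obtain ⟨l2, h4, h5, h6⟩ := hb l1 h1
  exact ⟨l2, h4, h6 h2, h5, List.Subset.trans h3 h6⟩

theorem Reach.add {a b : MvPolynomial σ ℤ} (ha : Reach a) (hb : Reach b) : Reach (a + b) :=
  fun l hl => by
    obtain ⟨l', h1, h2, h3, h4⟩ := ha.two hb hl
    exact ⟨_, h1.add h2 h3, List.mem_cons_self, List.subset_cons_of_subset _ h4⟩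

theorem Reach.sub {a b : MvPolynomial σ ℤ} (ha : Reach a) (hb : Reach b) : Reach (a - b) :=
  fun l hl => by
    obtain ⟨l', h1, h2, h3, h4⟩ := ha.two hb hl
    exact ⟨_, h1.sub h2 h3, List.mem_cons_self, List.subset_cons_of_subset _ h4⟩

theorem Reach.mul {a b : MvPolynomial σ ℤ} (ha : Reach a) (hb : Reach b) : Reach (a * b) :=
  fun l hl => by
    obtain ⟨l', h1, h2, h3, h4⟩ := ha.two hb hl
    exact ⟨_, h1.mul h2 h3, List.mem_cons_self, List.subset_cons_of_subset _ h4⟩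

theorem reach_one : Reach (1 : MvPolynomial σ ℤ) := fun l hl =>
  ⟨_, hl.one, List.mem_cons_self, List.subset_cons_self _ _⟩

theorem reach_X (i : σ) : Reach (X i : MvPolynomial σ ℤ) := fun l hl =>
  ⟨_, hl.var i, List.mem_cons_self, List.subset_cons_self _ _⟩

theorem reach (h : MvPolynomial σ ℤ) : Reach h := by
  induction h using MvPolynomial.induction_on with
  | C c =>
    induction c using Int.induction_on with
    | zero => simpa using (reach_one (σ := σ)).sub reach_one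
    | succ n ih => rw [C_add, C_1]; exact ih.add reach_one
    | pred n ih => rw [C_sub, C_1]; exact ih.sub reach_one
  | add p q hp hq => exact hp.add hq
  | mul_X p i hp => exact hp.mul (reach_X i)

theorem exists_slp (L : List (MvPolynomial σ ℤ)) : ∃ l, SLP l ∧ L ⊆ l := by
  induction L with
  | nil => exact ⟨[], SLP.nil, List.Subset.refl _⟩
  | cons a L ih =>
    obtain ⟨l, h1, h2⟩ := ih
    obtain ⟨l', h3, h4, h5⟩ := reach a l h1
    exact ⟨l', h3, List.cons_subset.2 ⟨h4, List.Subset.trans h2 h5⟩⟩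

theorem SLP.sound {l0 : List (MvPolynomial σ ℤ)} {W : MvPolynomial σ ℤ → ℚ}
    (h1 : ∀ a ∈ l0, ∀ b ∈ l0, ∀ c ∈ l0, a + b = c → W a + W b = W c)
    (h2 : ∀ a ∈ l0, ∀ b ∈ l0, ∀ c ∈ l0, a * b = c → W a * W b = W c)
    (h3 : (1 : MvPolynomial σ ℤ) ∈ l0 → W 1 = 1) {l : List (MvPolynomial σ ℤ)} (hl : SLP l)
    (hs : l ⊆ l0) : ∀ p ∈ l, W p = aeval (fun t => W (X t)) p := by
  induction hl with
  | nil => simp
  | one _ ih =>
    obtain ⟨s1, s2⟩ := List.cons_subset.1 hs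
    exact List.forall_mem_cons.2 ⟨by simp [h3 s1], ih s2⟩
  | var i _ ih =>
    obtain ⟨s1, s2⟩ := List.cons_subset.1 hs
    exact List.forall_mem_cons.2 ⟨by simp, ih s2⟩
  | @add l a b _ ha hb ih =>
    obtain ⟨s1, s2⟩ := List.cons_subset.1 hs
    refine List.forall_mem_cons.2 ⟨?_, ih s2⟩
    rw [map_add, ← ih s2 a ha, ← ih s2 b hb, h1 a (s2 ha) b (s2 hb) _ s1 rfl]
  | @sub l a b _ ha hb ih =>
    obtain ⟨s1, s2⟩ := List.cons_subset.1 hs
    refine List.forall_mem_cons.2 ⟨?_, ih s2⟩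
    rw [map_sub, ← ih s2 a ha, ← ih s2 b hb, ← h1 _ s1 b (s2 hb) a (s2 ha) (sub_add_cancel _ _)]
    ring
  | @mul l a b _ ha hb ih =>
    obtain ⟨s1, s2⟩ := List.cons_subset.1 hs
    refine List.forall_mem_cons.2 ⟨?_, ih s2⟩
    rw [map_mul, ← ih s2 a ha, ← ih s2 b hb, h2 a (s2 ha) b (s2 hb) _ s1 rfl]

/-- clearing denominators -/
theorem exists_hom (g : MvPolynomial σ ℤ) : ∃ (d : ℕ) (h : MvPolynomial (Option σ) ℤ),
    ∀ (B : ℚ) (a : σ → ℚ), B ≠ 0 →
      aeval (fun o : Option σ => o.elim B a) h = B ^ d * aeval (fun i => a i / B) g := by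
  induction g using MvPolynomial.induction_on with
  | C c => exact ⟨0, C c, fun B a _ => by simp⟩
  | add p q hp hq =>
    obtain ⟨d, h, e⟩ := hp
    obtain ⟨d', h', e'⟩ := hq
    refine ⟨d + d', X none ^ d' * h + X none ^ d * h', fun B a hB => ?_⟩
    simp only [map_add, map_mul, map_pow, aeval_X, e B a hB, e' B a hB, Option.elim_none]
    ring
  | mul_X p i hp =>
    obtain ⟨d, h, e⟩ := hp
    refine ⟨d + 1, h * X (some i), fun B a hB => ?_⟩
    simp only [map_mul, aeval_X, e B a hB, Option.elim_some]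
    generalize (aeval fun i => a i / B) p = u
    field_simp
    ring

theorem cast_aeval (a : σ → ℤ) (p : MvPolynomial σ ℤ) :
    ((aeval a p : ℤ) : ℚ) = aeval (fun i => (a i : ℚ)) p := by
  induction p using MvPolynomial.induction_on with
  | C c => simp
  | add p q hp hq => simp only [map_add, Int.cast_add, hp, hq]
  | mul_X p i hp => simp only [map_mul, Int.cast_mul, hp, aeval_X]

theorem common_den [Finite σ] (y : σ → ℚ) :
    ∃ (D : ℕ) (a : σ → ℤ), ∀ i, y i * (1 + D) = a i := by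
  haveI := Fintype.ofFinite σ
  classical
  have h0 : 0 < ∏ i, (y i).den := Finset.prod_pos fun i _ => (y i).den_pos
  have h : ∀ i, ∃ c : ℕ, ∏ i, (y i).den = (y i).den * c := fun i =>
    Finset.dvd_prod_of_mem _ (Finset.mem_univ i)
  choose c hc using h
  refine ⟨∏ i, (y i).den - 1, fun i => (y i).num * c i, fun i => ?_⟩
  have e : (1 : ℚ) + ((∏ i, (y i).den - 1 : ℕ) : ℚ) = ((∏ i, (y i).den : ℕ) : ℚ) := by
    rw [Nat.cast_sub h0]
    simp
  rw [e, hc i]
  push_cast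
  rw [← Rat.mul_den_eq_num]
  ring

end slp

/-- rational parameters, integral unknowns -/
def ext {k : ℕ} (x : Fin k → ℚ) (z : ℕ → ℤ) : ℕ → ℚ := fun i => if h : i < k then x ⟨i, h⟩ else z i

theorem ext_lt {k : ℕ} (x : Fin k → ℚ) (z : ℕ → ℤ) (i : Fin k) : ext x z i = x i := by
  simp [ext]

theorem ext_add {k : ℕ} (x : Fin k → ℚ) (z : ℕ → ℤ) (i : ℕ) : ext x z (k + i) = z (k + i) := by
  simp [ext]

/-- a system with integral solutions for a Diophantine set of rational vectors -/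
theorem core {k m : ℕ} (g : MvPolynomial (Fin k ⊕ Fin m) ℤ) : ∃ S : Sys,
    (∀ x : Fin k → ℚ, (∃ y : Fin m → ℚ, aeval (Sum.elim x y) g = 0) → ∃ z, Sol S (ext x z)) ∧
    ∀ w : ℕ → ℚ, Sol S w → ∃ y : Fin m → ℚ, aeval (Sum.elim (fun i : Fin k => w i) y) g = 0 := by
  classical
  obtain ⟨d, h, hh⟩ := exists_hom g
  let PB : MvPolynomial ((Fin k ⊕ Fin m) ⊕ Fin 4) ℤ :=
    1 + (X (Sum.inr 0) ^ 2 + X (Sum.inr 1) ^ 2 + X (Sum.inr 2) ^ 2 + X (Sum.inr 3) ^ 2)
  let H : MvPolynomial ((Fin k ⊕ Fin m) ⊕ Fin 4) ℤ :=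
    aeval (fun o : Option (Fin k ⊕ Fin m) => o.elim PB fun i => X (Sum.inl i)) h
  have eH : ∀ a : (Fin k ⊕ Fin m) ⊕ Fin 4 → ℚ, aeval a PB ≠ 0 ∧
      aeval a H = aeval a PB ^ d * aeval (fun i => a (Sum.inl i) / aeval a PB) g := fun a => by
    have h0 : aeval a PB ≠ 0 := by
      simp only [PB, map_add, map_pow, map_one, aeval_X]
      positivity
    refine ⟨h0, ?_⟩
    rw [← hh _ (fun i => a (Sum.inl i)) h0]
    simp only [H]
    rw [← AlgHom.comp_apply, comp_aeval]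
    congr 2
    funext o
    cases o <;> simp
  obtain ⟨l, hl, hs⟩ := exists_slp (H :: PB :: List.ofFn fun i : Fin k => X (Sum.inl (Sum.inl i)))
  have mH : H ∈ l := hs List.mem_cons_self
  have mB : PB ∈ l := hs (List.mem_cons_of_mem _ List.mem_cons_self)
  have mX : ∀ i : Fin k, X (Sum.inl (Sum.inl i)) ∈ l := fun i =>
    hs (List.mem_cons_of_mem _ (List.mem_cons_of_mem _ (List.mem_ofFn.2 ⟨i, rfl⟩)))
  let ι : MvPolynomial ((Fin k ⊕ Fin m) ⊕ Fin 4) ℤ → ℕ := fun p => k + l.idxOf p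
  let T := l ×ˢ (l ×ˢ l)
  have mT : ∀ a b c, (a, b, c) ∈ T ↔ a ∈ l ∧ b ∈ l ∧ c ∈ l := fun a b c => by
    simp only [T, List.mem_product]
  let f := fun t : MvPolynomial ((Fin k ⊕ Fin m) ⊕ Fin 4) ℤ ×
    MvPolynomial ((Fin k ⊕ Fin m) ⊕ Fin 4) ℤ × MvPolynomial ((Fin k ⊕ Fin m) ⊕ Fin 4) ℤ =>
      (ι t.1, ι t.2.1, ι t.2.2)
  refine ⟨((ι H, ι H, ι H) :: (T.filter fun t => t.1 + t.2.1 = t.2.2).map f,
    (List.ofFn fun i : Fin k => ((i : ℕ), ι PB, ι (X (Sum.inl (Sum.inl i))))) ++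
      (T.filter fun t => t.1 * t.2.1 = t.2.2).map f,
    (l.filter fun p => p = 1).map ι), ?_, ?_⟩
  · rintro x ⟨y, hy⟩
    obtain ⟨D, a, ha⟩ := common_den (Sum.elim x y)
    obtain ⟨s0, s1, s2, s3, hD⟩ := Nat.sum_four_squares D
    let b : (Fin k ⊕ Fin m) ⊕ Fin 4 → ℤ := Sum.elim a ![s0, s1, s2, s3]
    let z : ℕ → ℤ := fun n => aeval b (l.getD (n - k) 0)
    have ez : ∀ p ∈ l, ext x z (ι p) = aeval (fun i => (b i : ℚ)) p := fun p hp => by
      simp only [ι, ext_add, z, Nat.add_sub_cancel_left, cast_aeval]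
      rw [List.getD_eq_getElem _ _ (List.idxOf_lt_length_of_mem hp), List.getElem_idxOf]
    have eB : aeval (fun i => (b i : ℚ)) PB = 1 + (D : ℚ) := by
      simp only [PB, map_add, map_pow, map_one, aeval_X, b, Sum.elim_inr, ← hD]
      simp
    refine ⟨z, ?_, ?_, ?_⟩
    · refine List.forall_mem_cons.2 ⟨?_, fun e he => ?_⟩
      · have : ext x z (ι H) = 0 := by
          rw [ez H mH, (eH _).2, eB]
          have : (fun i => (b (Sum.inl i) : ℚ) / (1 + (D : ℚ))) = Sum.elim x y := by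
            funext i
            have h1 : (1 + (D : ℚ)) ≠ 0 := by positivity
            rw [div_eq_iff h1, ha i]
            rfl
          rw [this, hy, mul_zero]
        simp only [this, add_zero]
      · obtain ⟨⟨p, q, r⟩, h1, rfl⟩ := List.mem_map.1 he
        obtain ⟨h2, h3⟩ := List.mem_filter.1 h1
        obtain ⟨m1, m2, m3⟩ := (mT _ _ _).1 h2
        have h4 : p + q = r := by simpa using h3
        simp only [f]
        rw [ez p m1, ez q m2, ez r m3, ← h4, map_add]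
    · intro e he
      rcases List.mem_append.1 he with he | he
      · obtain ⟨i, rfl⟩ := List.mem_ofFn.1 he
        simp only
        rw [ext_lt, ez _ mB, ez _ (mX i), eB, aeval_X]
        exact ha (Sum.inl i)
      · obtain ⟨⟨p, q, r⟩, h1, rfl⟩ := List.mem_map.1 he
        obtain ⟨h2, h3⟩ := List.mem_filter.1 h1
        obtain ⟨m1, m2, m3⟩ := (mT _ _ _).1 h2
        have h4 : p * q = r := by simpa using h3
        simp only [f]
        rw [ez p m1, ez q m2, ez r m3, ← h4, map_mul]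
    · intro e he
      obtain ⟨p, h1, rfl⟩ := List.mem_map.1 he
      obtain ⟨h2, h3⟩ := List.mem_filter.1 h1
      have h4 : p = 1 := by simpa using h3
      rw [ez p h2, h4, map_one]
  · rintro w ⟨h1, h2, h3⟩
    have key := SLP.sound (l0 := l) (W := fun p => w (ι p))
      (fun a ha b hb c hc e => h1 (f (a, b, c)) (List.mem_cons_of_mem _ (List.mem_map_of_mem
        (List.mem_filter.2 ⟨(mT _ _ _).2 ⟨ha, hb, hc⟩, by simpa using e⟩))))
      (fun a ha b hb c hc e => h2 (f (a, b, c)) (List.mem_append_right _ (List.mem_map_of_mem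
        (List.mem_filter.2 ⟨(mT _ _ _).2 ⟨ha, hb, hc⟩, by simpa using e⟩))))
      (fun h1 => h3 _ (List.mem_map_of_mem (List.mem_filter.2 ⟨h1, by simp⟩))) hl
      (List.Subset.refl _)
    obtain ⟨e1, e2⟩ := eH fun t => w (ι (X t))
    rw [← key H mH, ← key PB mB] at e2
    rw [← key PB mB] at e1
    have h0 : w (ι H) = 0 := by
      have := h1 _ List.mem_cons_self
      simpa using this
    refine ⟨fun j => w (ι (X (Sum.inl (Sum.inr j)))) / w (ι PB), ?_⟩
    rw [h0] at e2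
    have e3 := (mul_eq_zero.1 e2.symm).resolve_left (pow_ne_zero _ e1)
    rw [← e3]
    congr 2
    funext i
    rcases i with i | i
    · have := h2 _ (List.mem_append_left _ (List.mem_ofFn.2 ⟨i, rfl⟩))
      simp only at this
      simp only [Sum.elim_inl]
      rw [eq_div_iff e1, this]
    · rfl

end Vale.Agent.N027
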