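import Vale.Agent.P027Z.Undec
import Vale.Agent.P027M.Top.Fin
import Vale.Agent.N027.Rat
import Vale.Agent.N027.Sys

set_option linter.all false

/-! P027: recursively enumerable sets of rational vectors are Diophantine, if the integers are. -/

namespace Vale.Agent.N027

open MvPolynomial Vale.Agent.P027 Vale.Agent.P027.K2 Vale.Agent.P027Z Vale.Agent.P027.B

/-- the integers are Diophantine in the rationals -/
def ZDio : Prop := ∃ (m : ℕ) (g : MvPolynomial (Option (Fin m)) ℤ), ∀ x : ℚ,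
  (∃ n : ℤ, x = n) ↔ ∃ y : Fin m → ℚ, aeval (fun o : Option (Fin m) => o.elim x y) g = 0

theorem ZDio.dio (h : ZDio) : Dio (fun v => ∃ n : ℤ, v 0 = n) := by
  obtain ⟨m, g, hg⟩ := h
  refine ⟨rename (fun o : Option (Fin m) => o.elim (Sum.inl 0) (fun i => Sum.inr (i : ℕ))) g,
    fun v => ?_⟩
  have key : ∀ y : ℕ → ℚ, (Sum.elim v y ∘
      fun o : Option (Fin m) => o.elim (Sum.inl 0) (fun i => Sum.inr (i : ℕ))) =
      fun o : Option (Fin m) => o.elim (v 0) (fun i : Fin m => y i) := by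
    intro y; funext o; cases o <;> rfl
  simp only [aeval_rename, key]
  rw [hg]
  constructor
  · rintro ⟨y, hy⟩
    exact ⟨fun i => if h : i < m then y ⟨i, h⟩ else 0, by simpa using hy⟩
  · rintro ⟨y, hy⟩
    exact ⟨_, hy⟩

theorem dio_reN (hZ : ZDio) {n : ℕ} {S : Set (Fin n → ℕ)} (hS : REPred fun a => a ∈ S) :
    Dio fun v => ∃ a : Fin n → ℕ, a ∈ S ∧ ∀ i : Fin n, v i = a i := by
  obtain ⟨m, f, h1, h2⟩ := Vale.Agent.P345.sf_of_rePred n _ hS
  obtain ⟨P, hP⟩ := isPoly_fn (α := Fin n ⊕ Fin m) h1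
    (Sum.elim (fun i => m + (i : ℕ)) (fun i => i))
  have hT := (Dio.forall_lt (fun i => (dio_nat hZ.dio).ren (fun _ => i)) (m + n)).and (Dio.poly P)
  refine (Dio.exN (m := m) hT).congr fun v => ⟨?_, ?_⟩
  · rintro ⟨a, ha, hv⟩
    obtain ⟨u, hu, -⟩ := (h2 a).1 ha
    refine ⟨fun i => u i, fun i hi => ?_, ?_⟩
    · by_cases h : i < m
      · exact ⟨u ⟨i, h⟩, by simp [appq, h]⟩
      · exact ⟨a ⟨i - m, by omega⟩, by simp only [appq, dif_neg h]; exact hv ⟨i - m, by omega⟩⟩
    · rw [hP _ (Sum.elim a u) (by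
        rintro (i | i)
        · simp [appq, hv]
        · simp [appq])]
      exact_mod_cast hu
  · rintro ⟨w, b1, b2⟩
    choose! u hu using b1
    refine ⟨fun i => u (m + i), ?_, fun i => ?_⟩
    · rw [hP _ (Sum.elim (fun i : Fin n => u (m + i)) (fun i => u i)) (by
        rintro (i | i)
        · exact hu (m + i) (by omega)
        · exact hu i (by omega))] at b2
      exact (h2 _).2 (fun i => u i) (by exact_mod_cast b2)
    · have := hu (m + i) (by omega)
      simpa [appq] using this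

theorem dio_fin {S : (ℕ → ℚ) → Prop} (h : Dio S) (k : ℕ) :
    ∃ (m : ℕ) (g : MvPolynomial (Fin k ⊕ Fin m) ℤ), ∀ x : Fin k → ℚ,
      S (fun i => if h : i < k then x ⟨i, h⟩ else 1) ↔
        ∃ y : Fin m → ℚ, aeval (Sum.elim x y) g = 0 := by
  obtain ⟨m, F, hF⟩ := Dio.fin (h.ren (fun i => i + 1)) k
  refine ⟨m + 1, F, fun x => ⟨fun h => ?_, ?_⟩⟩
  · obtain ⟨y, hy⟩ := (hF x 0).1 h
    exact ⟨_, hy⟩
  · rintro ⟨y, hy⟩
    exact (hF x (Matrix.vecHead y)).2 ⟨Matrix.vecTail y, by rwa [Matrix.cons_head_tail]⟩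

theorem dprm (hZ : ZDio) {k : ℕ} {A : Set (Fin k → ℚ)} (hA : REPred fun x => x ∈ A) :
    ∃ (m : ℕ) (g : MvPolynomial (Fin k ⊕ Fin m) ℤ), ∀ x : Fin k → ℚ,
      x ∈ A ↔ ∃ y : Fin m → ℚ, aeval (Sum.elim x y) g = 0 := by
  let φ : (Fin (2 * k + 1) → ℕ) → Fin k → ℚ := fun c i =>
    ((c ⟨2 * i + 1, by omega⟩ : ℚ) - c ⟨2 * i + 2, by omega⟩) / (1 + c ⟨0, by omega⟩)
  have hφ : Computable φ := by
    refine comp_fin fun i => ?_
    have hc : ∀ j, Computable fun c : Fin (2 * k + 1) → ℕ => c j := comp_app Computable.id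
    refine comp_rat (primrec_sub.to_comp.comp (hc ⟨2 * i + 1, by omega⟩) (hc ⟨2 * i + 2, by omega⟩))
      (primrec_int_cast.to_comp.comp (Computable.succ.comp (hc ⟨0, by omega⟩))) (fun c => ?_)
      fun c => ?_
    · exact Int.natCast_ne_zero.2 (Nat.succ_ne_zero _)
    · simp only [φ]
      push_cast
      field_simp
      ring
  have h1 := dio_reN hZ (S := {c | φ c ∈ A}) (N1.comp_re hA hφ)
  have h2 := Dio.forall_lt (S := fun i v => v (2 * k + 1 + i) * (1 + v 0) =
    v (2 * i + 1) - v (2 * i + 2)) (fun i => Dio.eq ((DioFn.var (2 * k + 1 + i)).mul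
      ((DioFn.num 1).add (DioFn.var 0))) ((DioFn.var (2 * i + 1)).sub (DioFn.var (2 * i + 2)))
      |>.congr fun v => by simp) k
  obtain ⟨m, g, hg⟩ := dio_fin (Dio.exN (m := 2 * k + 1) (h1.and h2)) k
  refine ⟨m, g, fun x => Iff.trans ?_ (hg x)⟩
  have e1 : ∀ (w : Fin (2 * k + 1) → ℚ) (v : ℕ → ℚ) (j : ℕ) (hj : j < 2 * k + 1),
      appq w v j = w ⟨j, hj⟩ := fun w v j hj => dif_pos hj
  have e2 : ∀ (w : Fin (2 * k + 1) → ℚ) (i : ℕ) (hi : i < k),
      appq w (fun i => if h : i < k then x ⟨i, h⟩ else 1) (2 * k + 1 + i) = x ⟨i, hi⟩ := by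
    intro w i hi
    have : ¬ 2 * k + 1 + i < 2 * k + 1 := by omega
    simp only [appq, dif_neg this, Nat.add_sub_cancel_left, dif_pos hi]
  constructor
  · intro hx
    obtain ⟨D, a, ha⟩ := common_den x
    let a' : ℕ → ℤ := fun i => if h : i < k then a ⟨i, h⟩ else 0
    let u : ℕ → ℕ := fun j =>
      if j = 0 then D else if j % 2 = 1 then (a' (j / 2)).toNat else (-a' (j / 2 - 1)).toNat
    have u0 : u 0 = D := rfl
    have u1 : ∀ (i : ℕ) (hi : i < k), (u (2 * i + 1) : ℚ) - u (2 * i + 2) = a ⟨i, hi⟩ := by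
      intro i hi
      have b1 : (2 * i + 1) % 2 = 1 := by omega
      have b2 : ¬ (2 * i + 2) % 2 = 1 := by omega
      have b3 : (2 * i + 1) / 2 = i := by omega
      have b4 : (2 * i + 2) / 2 - 1 = i := by omega
      simp only [u, if_neg (Nat.succ_ne_zero _), if_pos b1, if_neg b2, b3, b4, a', dif_pos hi]
      exact_mod_cast toNat_sub _
    refine ⟨fun j => u j, ⟨fun j => u j, ?_, fun j => e1 _ _ _ j.2⟩, fun i hi => ?_⟩
    · have : φ (fun j => u j) = x := by
        funext i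
        have h0 : (1 + (D : ℚ)) ≠ 0 := by positivity
        simp only [φ, u0]
        rw [u1 i i.2, div_eq_iff h0, ha i]
      rwa [Set.mem_setOf_eq, this]
    · rw [e2 _ i hi, e1 _ _ 0 (by omega), e1 _ _ (2 * i + 1) (by omega),
        e1 _ _ (2 * i + 2) (by omega)]
      simp only [u0]
      rw [u1 i hi, ha]
  · rintro ⟨w, ⟨c, hc, hw⟩, h⟩
    have : φ c = x := by
      funext i
      have h0 : (1 + (c ⟨0, by omega⟩ : ℚ)) ≠ 0 := by positivity
      have h3 := h i i.2
      rw [e2 _ i i.2] at h3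
      have w0 := hw ⟨0, by omega⟩
      have w1 := hw ⟨2 * i + 1, by omega⟩
      have w2 := hw ⟨2 * i + 2, by omega⟩
      simp only at w0 w1 w2
      rw [w0, w1, w2] at h3
      simp only [φ]
      rw [div_eq_iff h0, ← h3]
    rw [← this]
    exact hc

/-- the system which says that the variable `0` of `S` has the value `a` -/
def famS (S : Sys) (a : ℕ) : Sys :=
  ((S.1.map fun e => (2 * e.1, 2 * e.2.1, 2 * e.2.2)) ++ (1, 1, 1) :: (0, 1, 2 * a + 1) ::
      (List.range a).map fun j => (2 * j + 1, 3, 2 * j + 3),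
    S.2.1.map fun e => (2 * e.1, 2 * e.2.1, 2 * e.2.2), 3 :: S.2.2.map fun i => 2 * i)

theorem prim_famS (S : Sys) : Primrec (famS S) := by
  have h2 : ∀ c, Primrec fun a : ℕ => 2 * a + c := fun c =>
    Primrec.nat_add.comp (Primrec.nat_mul.comp (Primrec.const 2) Primrec.id) (Primrec.const c)
  refine Primrec.pair (Primrec.list_append.comp (Primrec.const _) (Primrec.list_cons.comp
    (Primrec.const _) (Primrec.list_cons.comp ((Primrec.const 0).pair ((Primrec.const 1).pair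
      (h2 1))) ?_))) (Primrec.const _)
  exact Primrec.list_map Primrec.list_range
    (((h2 1).comp Primrec.snd).pair ((Primrec.const 3).pair ((h2 3).comp Primrec.snd))).to₂

theorem sol_famS (S : Sys) (a : ℕ) (w : ℕ → ℚ) : Sol (famS S a) w ↔
    Sol S (fun i => w (2 * i)) ∧ w 1 + w 1 = w 1 ∧ w 0 + w 1 = w (2 * a + 1) ∧ w 3 = 1 ∧
      ∀ j < a, w (2 * j + 1) + w 3 = w (2 * j + 3) := by
  simp only [Sol, famS, List.forall_mem_append, List.forall_mem_cons, List.forall_mem_map,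
    List.mem_range]
  tauto

theorem fam (hZ : ZDio) {p : ℕ → Prop} (hp : REPred p) : ∃ f : ℕ → Sys, Primrec f ∧ ∀ a,
    (p a → ∃ z : ℕ → ℤ, Sol (f a) fun i => z i) ∧ ∀ w, Sol (f a) w → p a := by
  have hS : REPred (fun a : Fin 1 → ℕ => a ∈ {a : Fin 1 → ℕ | p (a 0)}) :=
    N1.comp_re hp (comp_app Computable.id 0)
  obtain ⟨m, g, hg⟩ := dio_fin (dio_reN hZ hS) 1
  obtain ⟨S, h1, h2⟩ := core g
  refine ⟨famS S, prim_famS S, fun a => ⟨fun ha => ?_, fun w hw => ?_⟩⟩
  · obtain ⟨z, hz⟩ := h1 (fun _ => a) ((hg _).1 ⟨fun _ => a, ha, fun i => by simp⟩)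
    refine ⟨fun i => if i % 2 = 0 then (if i = 0 then a else z (i / 2)) else (i / 2 : ℕ), ?_⟩
    have o : ∀ j : ℕ, ¬ (2 * j + 1) % 2 = 0 := fun j => by omega
    have o' : ∀ j : ℕ, (2 * j + 1) / 2 = j := fun j => by omega
    have o3 : ∀ j : ℕ, 2 * j + 3 = 2 * (j + 1) + 1 := fun j => by ring
    rw [sol_famS]
    refine ⟨?_, by simp, ?_, by simp, fun j _ => ?_⟩
    · convert hz using 2 with i
      rcases Nat.eq_zero_or_pos i with rfl | hi
      · simp [ext]
      · have : ¬ i < 1 := by omega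
        simp [ext, hi.ne', this]
    · simp only [if_neg (o a), o']
      simp
    · simp only [o3, if_neg (o _), o']
      simp
  · obtain ⟨b0, b1, b2, b3, b4⟩ := (sol_famS S a w).1 hw
    have c1 : w 1 = 0 := by linarith
    have c2 : ∀ j ≤ a, w (2 * j + 1) = j := fun j => by
      induction j with
      | zero => exact fun _ => by simpa using c1
      | succ j ih =>
        intro hj
        have := b4 j (by omega)
        rw [ih (by omega), b3] at this
        push_cast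
        exact this.symm
    obtain ⟨c, hc, e⟩ := (hg _).2 (h2 _ b0)
    have e0 := e 0
    have : (c 0 : ℚ) = a := by
      rw [← e0, ← c2 a le_rfl, ← b2, c1]
      simp
    have : c 0 = a := by exact_mod_cast this
    rw [← this]
    exact hc

end Vale.Agent.N027
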