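import Vale.Agent.N027.Dprm

set_option linter.all false

/-! P027: degree four, quartic forms, subrings, completeness, real topology. -/

namespace Vale.Agent.N027

open MvPolynomial Vale.Agent.P027 Vale.Agent.P027.B Vale.Agent.P027M.Fin

/-- the equations of a system; `t` is the homogenizing factor and `c` the shift of the indices -/
def eqs (t : List ℕ) (c : ℕ) (S : Sys) : List Poly :=
  (S.1.map fun e => [(1, (e.1 + c) :: t), (1, (e.2.1 + c) :: t), (-1, (e.2.2 + c) :: t)]) ++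
  ((S.2.1.map fun e => [(1, [e.1 + c, e.2.1 + c]), (-1, (e.2.2 + c) :: t)]) ++
    S.2.2.map fun i => [(1, (i + c) :: t), (-1, t ++ t)])

/-- sums of squares -/
def sos (L : List Poly) : Poly := L.flatMap sq

theorem ev_sos (y : ℕ → ℚ) (L : List Poly) : ev y (sos L) = 0 ↔ ∀ F ∈ L, ev y F = 0 := by
  unfold sos
  rw [ev_flatMap, (sum_sq_nonneg L _ fun F _ => by rw [ev_sq]; positivity).2]
  simp [ev_sq]

theorem mem_sos {L : List Poly} {u : ℤ × List ℕ} (h : u ∈ sos L) :
    ∃ F ∈ L, ∃ a ∈ F, ∃ b ∈ F, u.2 = a.2 ++ b.2 := by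
  simp only [sos, B.sq, mulP, List.mem_flatMap, List.mem_map] at h
  obtain ⟨F, h1, a, h2, b, h3, rfl⟩ := h
  exact ⟨F, h1, a, h2, b, h3, rfl⟩

theorem prim_sos : Primrec sos :=
  Primrec.list_flatMap Primrec.id (primrec_sq.comp Primrec.snd).to₂

theorem prim_eqs (t : List ℕ) (c : ℕ) : Primrec (eqs t c) := by
  have tm : ∀ {α : Type} [Primcodable α] (z : ℤ) {f : α → ℕ} {l : α → List ℕ}, Primrec f →
      Primrec l → Primrec fun a => (z, (f a + c) :: l a) := fun z f l hf hl =>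
    (Primrec.const z).pair (Primrec.list_cons.comp (Primrec.nat_add.comp hf (Primrec.const c)) hl)
  have e1 : Primrec fun a : Sys × ℕ × ℕ × ℕ => a.2.1 := Primrec.fst.comp Primrec.snd
  have e2 : Primrec fun a : Sys × ℕ × ℕ × ℕ => a.2.2.1 :=
    Primrec.fst.comp (Primrec.snd.comp Primrec.snd)
  have e3 : Primrec fun a : Sys × ℕ × ℕ × ℕ => a.2.2.2 :=
    Primrec.snd.comp (Primrec.snd.comp Primrec.snd)
  refine Primrec.list_append.comp (Primrec.list_map Primrec.fst ?_)
    (Primrec.list_append.comp (Primrec.list_map (Primrec.fst.comp Primrec.snd) ?_)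
      (Primrec.list_map (Primrec.snd.comp Primrec.snd) ?_))
  · exact (Primrec.list_cons.comp (tm 1 e1 (Primrec.const t)) (Primrec.list_cons.comp
      (tm 1 e2 (Primrec.const t)) (Primrec.list_cons.comp (tm (-1) e3 (Primrec.const t))
        (Primrec.const [])))).to₂
  · exact (Primrec.list_cons.comp (tm 1 e1 (Primrec.list_cons.comp
      (Primrec.nat_add.comp e2 (Primrec.const c)) (Primrec.const [])))
      (Primrec.list_cons.comp (tm (-1) e3 (Primrec.const t)) (Primrec.const []))).to₂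
  · exact (Primrec.list_cons.comp (tm 1 Primrec.snd (Primrec.const t))
      (Primrec.const [((-1 : ℤ), t ++ t)])).to₂

theorem ev_eqs {y : ℕ → ℚ} {t : List ℕ} (c : ℕ) (S : Sys) (h : (t.map y).prod ≠ 0) :
    (∀ F ∈ eqs t c S, ev y F = 0) ↔ Sol S fun i => y (i + c) / (t.map y).prod := by
  simp only [eqs, Sol, List.forall_mem_append, List.forall_mem_map, ev_cons, ev_nil,
    List.map_cons, List.prod_cons, List.map_append, List.prod_append, List.map_nil, List.prod_nil]
  generalize (t.map y).prod = s at h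
  push_cast
  refine and_congr (forall₂_congr fun e _ => ?_) (and_congr (forall₂_congr fun e _ => ?_)
    (forall₂_congr fun e _ => ?_))
  · rw [← add_div, div_left_inj' h]
    exact ⟨fun e => mul_right_cancel₀ h (by linear_combination e), fun e => by
      linear_combination s * e⟩
  · rw [div_mul_div_comm, div_eq_div_iff (mul_ne_zero h h) h]
    exact ⟨fun e => by linear_combination s * e, fun e => mul_right_cancel₀ h
      (by linear_combination e)⟩
  · rw [div_eq_one_iff_eq h]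
    exact ⟨fun e => mul_right_cancel₀ h (by linear_combination e), fun e => by
      linear_combination s * e⟩

theorem len_eqs {t : List ℕ} {c : ℕ} {S : Sys} {F : Poly} (hF : F ∈ eqs t c S) {a : ℤ × List ℕ}
    (ha : a ∈ F) : a.2.length = t.length + 1 ∨ a.2.length = 2 ∨ a.2.length = 2 * t.length := by
  simp only [eqs, List.mem_append, List.mem_map] at hF
  rcases hF with ⟨e, -, rfl⟩ | ⟨e, -, rfl⟩ | ⟨e, -, rfl⟩ <;>
    simp only [List.mem_cons, List.not_mem_nil, or_false] at ha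
  · rcases ha with rfl | rfl | rfl <;> simp
  · rcases ha with rfl | rfl <;> simp
  · rcases ha with rfl | rfl <;> simp [two_mul]

/-- the polynomial of degree at most four -/
def aff (S : Sys) : Poly := sos (eqs [] 0 S)

theorem ev_aff (y : ℕ → ℚ) (S : Sys) : ev y (aff S) = 0 ↔ Sol S y := by
  rw [aff, ev_sos, ev_eqs 0 S (by simp)]
  simp

theorem len_aff {S : Sys} {u : ℤ × List ℕ} (h : u ∈ aff S) : u.2.length ≤ 4 := by
  obtain ⟨F, h1, a, h2, b, h3, e⟩ := mem_sos h
  have := len_eqs h1 h2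
  have := len_eqs h1 h3
  simp only [e, List.length_append, List.length_nil] at *
  omega

theorem prim_aff : Primrec aff := prim_sos.comp (prim_eqs [] 0)

/-- the bound on the size of the variables -/
def bnd (N : ℕ) : Poly := [(1, [3, 3]), (1, [4, 4]), (1, [5, 5]), (1, [6, 6]), (-1, [1, 1])] ++
  (List.range N).map fun i => (1, [i + 7, i + 7])

/-- the number of variables, apart from the first seven -/
def nv (S : Sys) : ℕ := bd (sos (eqs [0] 7 S))

/-- the quartic form -/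
def frm (S : Sys) : Poly :=
  sos ([(1, [1, 1]), (-3, [2, 2]), (-1, [0, 0])] :: bnd (nv S) :: eqs [0] 7 S)

theorem ev_bnd (y : ℕ → ℚ) (N : ℕ) : ev y (bnd N) = y 3 ^ 2 + y 4 ^ 2 + y 5 ^ 2 + y 6 ^ 2 +
    ∑ i ∈ Finset.range N, y (i + 7) ^ 2 - y 1 ^ 2 := by
  have : ev y ((List.range N).map fun i => (1, [i + 7, i + 7])) =
      ∑ i ∈ Finset.range N, y (i + 7) ^ 2 := by
    induction N with
    | zero => simp [ev_nil]
    | succ N ih =>
      rw [List.range_succ, List.map_append, ev_append, ih, Finset.sum_range_succ]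
      simp [ev_cons, ev_nil, _root_.sq]
  rw [bnd, ev_append, this]
  simp only [ev_cons, ev_nil, List.map_cons, List.prod_cons, List.map_nil, List.prod_nil]
  push_cast
  ring

theorem ev_frm (y : ℕ → ℚ) (S : Sys) : ev y (frm S) = 0 ↔ y 1 ^ 2 = 3 * y 2 ^ 2 + y 0 ^ 2 ∧
    y 3 ^ 2 + y 4 ^ 2 + y 5 ^ 2 + y 6 ^ 2 + ∑ i ∈ Finset.range (nv S), y (i + 7) ^ 2 = y 1 ^ 2 ∧
      ∀ F ∈ eqs [0] 7 S, ev y F = 0 := by
  rw [frm, ev_sos, List.forall_mem_cons, List.forall_mem_cons, ev_bnd, sub_eq_zero]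
  refine and_congr_left' ?_
  simp only [ev_cons, ev_nil, List.map_cons, List.prod_cons, List.map_nil, List.prod_nil]
  push_cast
  constructor <;> intro h <;> linear_combination h

theorem shape_frm {S : Sys} {u : ℤ × List ℕ} (h : u ∈ frm S) :
    u.2.length = 4 ∧ ∀ i ∈ u.2, i < nv S + 7 := by
  obtain ⟨F, h1, a, h2, b, h3, e⟩ := mem_sos h
  have key : ∀ a ∈ F, a.2.length = 2 ∧ ∀ i ∈ a.2, i < nv S + 7 := by
    intro a ha
    rcases List.mem_cons.1 h1 with rfl | h1
    · simp only [List.mem_cons, List.not_mem_nil, or_false] at ha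
      rcases ha with rfl | rfl | rfl <;> simp
    rcases List.mem_cons.1 h1 with rfl | h1
    · simp only [bnd, List.mem_append, List.mem_cons, List.not_mem_nil, or_false, List.mem_map,
        List.mem_range] at ha
      rcases ha with (rfl | rfl | rfl | rfl | rfl) | ⟨i, hi, rfl⟩ <;> simp <;> omega
    · refine ⟨by have := len_eqs h1 ha; simp at this; omega, fun i hi => ?_⟩
      have h4 : (a.1 * a.1, a.2 ++ a.2) ∈ sos (eqs [0] 7 S) := by
        simp only [sos, B.sq, mulP, List.mem_flatMap, List.mem_map]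
        exact ⟨F, h1, a, ha, a, ha, rfl⟩
      have := lt_bd h4 (List.mem_append_left _ hi)
      unfold nv
      omega
  rw [e]
  exact ⟨by rw [List.length_append, (key a h2).1, (key b h3).1], fun i hi =>
    (List.mem_append.1 hi).elim ((key a h2).2 i) ((key b h3).2 i)⟩

theorem frm_of_sol {S : Sys} {z : ℕ → ℤ} (h : Sol S fun i => z i) :
    ∃ y : ℕ → ℤ, y 0 = 1 ∧ y 7 = z 0 ∧ ev (fun i => y i) (frm S) = 0 := by
  obtain ⟨M, hM⟩ : ∃ M : ℕ, (M : ℤ) = ∑ i ∈ Finset.range (nv S), z i ^ 2 :=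
    ⟨_, Int.toNat_of_nonneg (Finset.sum_nonneg fun i _ => sq_nonneg _)⟩
  have a1 : 1 < 2 := by norm_num
  have p1 := Pell.pell_eqz a1 M
  have p2 := Pell.n_lt_xn a1 M
  have p3 : M ≤ Pell.xn a1 M ^ 2 := by nlinarith
  obtain ⟨a, b, c, d, e⟩ := Nat.sum_four_squares (Pell.xn a1 M ^ 2 - M)
  refine ⟨fun i => if i < 7 then [1, Pell.xz a1 M, Pell.yz a1 M, a, b, c, d].getD i 0 else
    z (i - 7), rfl, rfl, (ev_frm _ S).2 ⟨?_, ?_, (ev_eqs 7 S (by simp)).2 ?_⟩⟩
  · have : Pell.xz a1 M ^ 2 = 3 * Pell.yz a1 M ^ 2 + 1 := by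
      have q := Pell.dz_val a1
      rw [q] at p1
      simp only [Pell.az] at p1
      push_cast at p1
      linear_combination p1
    simp
    exact_mod_cast this
  · have q : ((a : ℤ) ^ 2 + b ^ 2 + c ^ 2 + d ^ 2 + ∑ i ∈ Finset.range (nv S), z i ^ 2) =
        Pell.xz a1 M ^ 2 := by
      rw [← hM, Pell.xz]
      have : a ^ 2 + b ^ 2 + c ^ 2 + d ^ 2 + M = Pell.xn a1 M ^ 2 := by omega
      exact_mod_cast this
    simp
    exact_mod_cast q
  · simpa using h

theorem sol_of_frm {S : Sys} {y : ℕ → ℤ} (h0 : ∃ i < nv S + 7, y i ≠ 0)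
    (h : ev (fun i => y i) (frm S) = 0) :
    y 0 ≠ 0 ∧ Sol S fun i => (y (i + 7) : ℚ) / (y 0 : ℚ) := by
  obtain ⟨h1, h2, h3⟩ := (ev_frm _ S).1 h
  suffices e : y 0 ≠ 0 from ⟨e, by simpa using (ev_eqs 7 S (by simpa using e)).1 h3⟩
  intro e0
  have h4 : y 1 * y 1 = (3 : ℕ) * y 2 * y 2 := by
    rw [e0] at h1
    have : y 1 ^ 2 = 3 * y 2 ^ 2 + 0 ^ 2 := by exact_mod_cast h1
    push_cast
    linear_combination this
  haveI : Zsqrtd.Nonsquare 3 := ⟨fun n hn => by
    have : n ≤ 1 := by nlinarith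
    interval_cases n <;> simp at hn⟩
  obtain ⟨e1, e2⟩ := Zsqrtd.divides_sq_eq_zero_z h4
  rw [e1] at h2
  have h5 : y 3 ^ 2 + y 4 ^ 2 + y 5 ^ 2 + y 6 ^ 2 + ∑ i ∈ Finset.range (nv S), y (i + 7) ^ 2
      = 0 ^ 2 := by exact_mod_cast h2
  have h6 : 0 ≤ ∑ i ∈ Finset.range (nv S), y (i + 7) ^ 2 := Finset.sum_nonneg fun i _ => sq_nonneg _
  have h7 : ∑ i ∈ Finset.range (nv S), y (i + 7) ^ 2 = 0 := by nlinarith
  rw [Finset.sum_eq_zero_iff_of_nonneg fun i _ => sq_nonneg _] at h7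
  obtain ⟨i, hi, hy⟩ := h0
  apply hy
  by_cases h8 : i < 7
  · interval_cases i
    · exact e0
    · exact e1
    · exact e2
    all_goals nlinarith
  · have := h7 (i - 7) (Finset.mem_range.2 (by omega))
    rw [Nat.sub_add_cancel (by omega)] at this
    exact pow_eq_zero_iff (two_ne_zero) |>.1 this

theorem exists_lift {n : ℕ} {F : Poly} (h : ∀ t ∈ F, ∀ i ∈ t.2, i < n) :
    ∃ G : List (ℤ × List (Fin n)), (G.map fun t => (t.1, t.2.map Fin.val)) = F := by
  induction F with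
  | nil => exact ⟨[], rfl⟩
  | cons t F ih =>
    obtain ⟨G, rfl⟩ := ih fun u hu => h u (List.mem_cons_of_mem _ hu)
    refine ⟨(t.1, t.2.pmap Fin.mk (h t List.mem_cons_self)) :: G, ?_⟩
    simp [List.map_pmap]

theorem aeval_lift {n : ℕ} (G : List (ℤ × List (Fin n))) (y : ℕ → ℚ) :
    aeval (fun i : Fin n => y i) (poly n G) = ev y (G.map fun t => (t.1, t.2.map Fin.val)) := by
  rw [aeval_poly, ev, List.map_map]
  congr 1
  refine List.map_congr_left fun t _ => ?_
  simp only [Function.comp, List.map_map]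
  rfl

theorem aeval_lift' {n : ℕ} (G : List (ℤ × List (Fin n))) (y : Fin n → ℚ) :
    aeval y (poly n G) = ev (fun i => if h : i < n then y ⟨i, h⟩ else 0)
      (G.map fun t => (t.1, t.2.map Fin.val)) := by
  rw [← aeval_lift]
  simp

theorem nc : ∃ p : ℕ → Prop, REPred p ∧ ¬ ComputablePred p := by
  obtain ⟨p, hp, hn⟩ := N1.halting
  exact ⟨p, hp, fun hc => hn (ComputablePred.computable_iff_re_compl_re'.1 hc).2⟩

theorem not_dec {α : Type} [Primcodable α] {p : ℕ → Prop} (hp : ¬ ComputablePred p) {d : α → Bool}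
    (hd : Computable d) {f : ℕ → α} (hf : Computable f) (h : ∀ a, p a ↔ d (f a) = true) : False :=
  hp (ComputablePred.computable_iff.2 ⟨fun a => d (f a), hd.comp hf, funext fun a => propext (h a)⟩)

/-- systems of atomic equations -/
theorem atomic (hZ : ZDio) : ¬ ∃ d : Sys → Bool, Computable d ∧
    ∀ S, (d S = true ↔ ∃ x : ℕ → ℚ, Sol S x) := by
  rintro ⟨d, hd, H⟩
  obtain ⟨p, hp, hn⟩ := nc
  obtain ⟨f, hf, h⟩ := fam hZ hp
  refine not_dec hn hd hf.to_comp fun a => ?_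
  rw [H]
  exact ⟨fun ha => ((h a).1 ha).elim fun z hz => ⟨_, hz⟩, fun e => e.elim (h a).2⟩

theorem complete (hZ : ZDio) : REPred (fun F : Poly => ∃ y : ℕ → ℚ, ev y F = 0) ∧
    ∀ p : ℕ → Prop, REPred p → p ≤₀ fun F : Poly => ∃ y : ℕ → ℚ, ev y F = 0 := by
  constructor
  · have h := re_ex (p := fun (F : Poly) (b : ℕ × List ℤ) => evI F (b.1 + 1) b.2 = 0)
      (cp_eq (primrec_evI.comp (Primrec.fst.pair ((Primrec.succ.comp (Primrec.fst.comp
        Primrec.snd)).pair (Primrec.snd.comp Primrec.snd)))).to_comp (Computable.const 0))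
    refine h.of_eq fun F => ?_
    have e := HZ_iff (T := ∅) (by simp) F
    simp only [HZ, RT, Set.mem_empty_iff_false, false_imp_iff, implies_true, Set.setOf_true,
      Set.mem_univ, true_and] at e
    rw [e]
    constructor
    · rintro ⟨b, hb⟩
      exact ⟨_, _, Nat.succ_ne_zero _, hb⟩
    · rintro ⟨B, l, hB, hb⟩
      obtain ⟨c, rfl⟩ := Nat.exists_eq_succ_of_ne_zero hB
      exact ⟨(c, l), hb⟩
  · intro p hp
    obtain ⟨f, hf, h⟩ := fam hZ hp
    refine ⟨fun a => aff (f a), (prim_aff.comp hf).to_comp, fun a => ?_⟩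
    simp only [ev_aff]
    exact ⟨fun ha => ((h a).1 ha).elim fun z hz => ⟨_, hz⟩, fun e => e.elim (h a).2⟩

theorem coe_aeval {σ : Type} (R : Subring ℚ) (a : σ → R) (p : MvPolynomial σ ℤ) :
    ((aeval a p : R) : ℚ) = aeval (fun i => (a i : ℚ)) p := by
  induction p using MvPolynomial.induction_on with
  | C c => simp
  | add p q hp hq => simp only [map_add, Subring.coe_add, hp, hq]
  | mul_X p i hp => simp only [map_mul, Subring.coe_mul, hp, aeval_X]

/-- one polynomial of degree four with integral witnesses -/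
theorem unif {k m : ℕ} (g : MvPolynomial (Fin k ⊕ Fin m) ℤ) :
    ∃ (l : ℕ) (G : MvPolynomial (Fin k ⊕ Fin l) ℤ), G.totalDegree ≤ 4 ∧ ∀ x : Fin k → ℚ,
      ((∃ y : Fin m → ℚ, aeval (Sum.elim x y) g = 0) →
        ∃ y : Fin l → ℤ, aeval (Sum.elim x fun i => (y i : ℚ)) G = 0) ∧
      ((∃ y : Fin l → ℚ, aeval (Sum.elim x y) G = 0) →
        ∃ y : Fin m → ℚ, aeval (Sum.elim x y) g = 0) := by
  obtain ⟨S, h1, h2⟩ := core g
  obtain ⟨G, hG⟩ := exists_lift (n := bd (aff S) + k) (F := aff S) fun t ht i hi =>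
    (lt_bd ht hi).trans_le (Nat.le_add_right _ _)
  let φ : Fin (bd (aff S) + k) → Fin k ⊕ Fin (bd (aff S) + k) := fun i =>
    if h : (i : ℕ) < k then Sum.inl ⟨i, h⟩ else Sum.inr i
  refine ⟨_, rename φ (poly _ G), (totalDegree_rename_le _ _).trans ?_, fun x => ⟨fun h => ?_, ?_⟩⟩
  · have hl : ∀ t ∈ G, t.2.length ≤ 4 := fun t ht => by
      have := len_aff (hG ▸ List.mem_map_of_mem (f := fun t : ℤ × List (Fin _) =>
        (t.1, t.2.map Fin.val)) ht)
      simpa using this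
    clear hG
    induction G with
    | nil => simp [poly]
    | cons t G ih =>
      have e : poly _ (t :: G) = C t.1 * (t.2.map X).prod + poly _ G := by simp [poly]
      rw [e]
      refine (totalDegree_add _ _).trans (max_le ?_ (ih fun u hu => hl u (List.mem_cons_of_mem _ hu)))
      refine (totalDegree_mul _ _).trans ?_
      rw [totalDegree_C, zero_add]
      refine (totalDegree_list_prod _).trans (le_trans ?_ (hl t List.mem_cons_self))
      simp [List.map_map, Function.comp_def]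
  · obtain ⟨z, hz⟩ := h1 _ h
    refine ⟨fun i => z i, ?_⟩
    rw [aeval_rename]
    have := aeval_lift G (ext x z)
    rw [hG, (ev_aff _ _).2 hz] at this
    refine Eq.trans ?_ this
    congr 2
    funext i
    simp only [Function.comp, φ, ext]
    split_ifs <;> simp
  · rintro ⟨y, e⟩
    simp only [aeval_rename, aeval_lift', hG] at e
    obtain ⟨w, hw⟩ := h2 _ ((ev_aff _ _).1 e)
    refine ⟨w, ?_⟩
    rw [← hw]
    congr 3
    funext i
    have : (i : ℕ) < bd (aff S) + k := by omega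
    simp [this, φ]

theorem to_sub {k l : ℕ} {G : MvPolynomial (Fin k ⊕ Fin l) ℤ} {R : Subring ℚ} {x : Fin k → R}
    {P : Prop} (h1 : P → ∃ y : Fin l → ℤ,
      aeval (Sum.elim (fun i => (x i : ℚ)) fun i => (y i : ℚ)) G = 0)
    (h2 : (∃ y : Fin l → ℚ, aeval (Sum.elim (fun i => (x i : ℚ)) y) G = 0) → P) :
    P ↔ ∃ y : Fin l → R, aeval (Sum.elim x y) G = 0 := by
  constructor
  · intro h
    obtain ⟨y, hy⟩ := h1 h
    refine ⟨fun i => y i, Subtype.ext ?_⟩
    rw [coe_aeval]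
    refine Eq.trans ?_ hy
    congr 2
    funext i
    cases i <;> simp
  · rintro ⟨y, hy⟩
    refine h2 ⟨fun i => y i, ?_⟩
    have e := congrArg (fun r : R => (r : ℚ)) hy
    simp only [coe_aeval] at e
    refine Eq.trans ?_ e
    congr 2
    funext i
    cases i <;> simp

theorem int_sub (hZ : ZDio) : ∃ (m : ℕ) (g : MvPolynomial (Option (Fin m)) ℤ),
    g.totalDegree ≤ 4 ∧ (∀ x : ℚ, (∃ n : ℤ, x = n) ↔
      ∃ y : Fin m → ℚ, aeval (fun o : Option (Fin m) => o.elim x y) g = 0) ∧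
    ∀ (R : Subring ℚ) (x : R), (∃ n : ℤ, x = n) ↔
      ∃ y : Fin m → R, aeval (fun o : Option (Fin m) => o.elim x y) g = 0 := by
  obtain ⟨m, g, hg⟩ := hZ
  obtain ⟨l, G, h1, h2⟩ := unif (k := 1)
    (rename (fun o : Option (Fin m) => o.elim (Sum.inl 0) Sum.inr) g)
  have e1 : ∀ (x : ℚ) (y : Fin m → ℚ), (Sum.elim (fun _ : Fin 1 => x) y ∘
      fun o : Option (Fin m) => o.elim (Sum.inl 0) Sum.inr) = fun o => o.elim x y := by
    intro x y; funext o; cases o <;> rfl
  have e2 : ∀ {K : Type} (x : K) (y : Fin l → K), ((fun o : Option (Fin l) => o.elim x y) ∘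
      Sum.elim (fun _ : Fin 1 => none) some) = Sum.elim (fun _ => x) y := by
    intro K x y; funext o; cases o <;> rfl
  have h3 := fun x : ℚ => h2 fun _ => x
  simp only [aeval_rename, e1, ← hg] at h3
  refine ⟨l, rename (Sum.elim (fun _ => none) some) G, (totalDegree_rename_le _ _).trans h1,
    fun x => ?_, fun R x => ?_⟩
  · simp only [aeval_rename, e2]
    exact ⟨fun h => ((h3 x).1 h).elim fun y hy => ⟨_, hy⟩, (h3 x).2⟩
  · simp only [aeval_rename, e2]
    refine Iff.trans (exists_congr fun n => ?_) (to_sub (x := fun _ => x) (h3 x).1 (h3 x).2)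
    rw [Subtype.ext_iff]
    simp

theorem dprm4 (hZ : ZDio) {k : ℕ} {A : Set (Fin k → ℚ)} (hA : REPred fun x => x ∈ A) :
    ∃ (m : ℕ) (g : MvPolynomial (Fin k ⊕ Fin m) ℤ), g.totalDegree ≤ 4 ∧
      (∀ x : Fin k → ℚ,
        (x ∈ A → ∃ y : Fin m → ℤ, aeval (Sum.elim x fun i => (y i : ℚ)) g = 0) ∧
        ((∃ y : Fin m → ℚ, aeval (Sum.elim x y) g = 0) → x ∈ A)) ∧
      ∀ (R : Subring ℚ) (x : Fin k → R), (fun i => (x i : ℚ)) ∈ A ↔
        ∃ y : Fin m → R, aeval (Sum.elim x y) g = 0 := by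
  obtain ⟨m, g, hg⟩ := dprm hZ hA
  obtain ⟨l, G, h1, h2⟩ := unif g
  simp only [← hg] at h2
  exact ⟨l, G, h1, h2, fun R x => to_sub (h2 _).1 (h2 _).2⟩

theorem dprm_iff (hZ : ZDio) (k : ℕ) (A : Set (Fin k → ℚ)) :
    (∃ (m : ℕ) (g : MvPolynomial (Fin k ⊕ Fin m) ℤ),
      A = {x | ∃ y : Fin m → ℚ, aeval (Sum.elim x y) g = 0}) ↔ REPred fun x => x ∈ A := by
  constructor
  · rintro ⟨m, g, rfl⟩
    exact re_of_dio g
  · intro h
    obtain ⟨m, g, hg⟩ := dprm hZ h
    exact ⟨m, g, Set.ext hg⟩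

end Vale.Agent.N027
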