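import Vale.Agent.N027.Forms

set_option linter.all false

/-! P027: a fixed number of variables; the closure of the rational points in the real points. -/

namespace Vale.Agent.N027

open MvPolynomial Vale.Agent.P027 Vale.Agent.P027.B Vale.Agent.P027M.Fin

theorem fam0 (hZ : ZDio) {p : ℕ → Prop} (hp : REPred p) : ∃ S : Sys, ∀ a : ℕ,
    (p a → ∃ z : ℕ → ℤ, z 0 = a ∧ Sol S fun i => z i) ∧ ∀ w : ℕ → ℚ, w 0 = a → Sol S w → p a := by
  have hS : REPred (fun a : Fin 1 → ℕ => a ∈ {a : Fin 1 → ℕ | p (a 0)}) :=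
    N1.comp_re hp (comp_app Computable.id 0)
  obtain ⟨m, g, hg⟩ := dio_fin (dio_reN hZ hS) 1
  obtain ⟨S, h1, h2⟩ := core g
  refine ⟨S, fun a => ⟨fun ha => ?_, fun w w0 hw => ?_⟩⟩
  · obtain ⟨z, hz⟩ := h1 (fun _ => a) ((hg _).1 ⟨fun _ => a, ha, fun i => by simp⟩)
    refine ⟨fun i => if i = 0 then a else z i, rfl, ?_⟩
    convert hz using 2 with i
    rcases Nat.eq_zero_or_pos i with rfl | hi
    · simp [ext]
    · have : ¬ i < 1 := by omega
      simp [ext, hi.ne', this]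
  · obtain ⟨c, hc, e⟩ := (hg _).2 (h2 _ hw)
    have : (c 0 : ℚ) = a := by
      rw [← e 0, ← w0]
      simp
    have : c 0 = a := by exact_mod_cast this
    rw [← this]
    exact hc

theorem ev_sos_nonneg (y : ℕ → ℚ) (L : List Poly) : 0 ≤ ev y (sos L) := by
  unfold sos
  rw [ev_flatMap]
  exact (sum_sq_nonneg L _ fun F _ => by rw [ev_sq]; positivity).1

/-- the square of `t ^ 2 * (x - a * t)` divided by `t ^ 2` -/
def par {N : ℕ} (t : List (Fin N)) (j : Fin N) (a : ℕ) : List (ℤ × List (Fin N)) :=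
  [(1, j :: j :: (t ++ t)), (-2 * a, j :: (t ++ (t ++ t))), (a * a, t ++ (t ++ (t ++ t)))]

theorem prim_par {N : ℕ} (t : List (Fin N)) (j : Fin N) (G : List (ℤ × List (Fin N))) :
    Primrec fun a => par t j a ++ G :=
  Primrec.list_append.comp (Primrec.list_cons.comp (Primrec.const _) (Primrec.list_cons.comp
    ((primrec_int_mul.comp (Primrec.const _) primrec_int_cast).pair (Primrec.const _))
    (Primrec.list_cons.comp ((primrec_int_mul.comp primrec_int_cast primrec_int_cast).pair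
      (Primrec.const _)) (Primrec.const [])))) (Primrec.const G)

theorem aeval_par {N : ℕ} (t : List (Fin N)) (j : Fin N) (a : ℕ) (G : List (ℤ × List (Fin N)))
    (y : Fin N → ℚ) : aeval y (poly N (par t j a ++ G)) =
      ((t.map y).prod * (y j - a * (t.map y).prod)) ^ 2 + aeval y (poly N G) := by
  rw [poly_append, map_add, aeval_poly]
  simp only [par, List.map_cons, List.map_nil, List.sum_cons, List.sum_nil, List.prod_cons,
    List.map_append, List.prod_append]
  push_cast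
  ring

theorem insepN (hZ : ZDio) : ∃ N : ℕ, 1 ≤ N ∧ ¬ ∃ d : List (ℤ × List (Fin N)) → Bool,
    Computable d ∧ ∀ F : List (ℤ × List (Fin N)), (∀ t ∈ F, t.2.length ≤ 4) →
      ((∃ y : Fin N → ℤ, aeval y (poly N F) = 0) → d F = true) ∧
      (d F = true → ∃ y : Fin N → ℚ, aeval y (poly N F) = 0) := by
  obtain ⟨p, hp, hn⟩ := nc
  obtain ⟨S, h⟩ := fam0 hZ hp
  have p0 : 0 < bd (aff S) := Nat.succ_pos _
  refine ⟨bd (aff S), p0, ?_⟩
  rintro ⟨d, hd, H⟩
  obtain ⟨G, hG⟩ := exists_lift (n := bd (aff S)) (F := aff S) fun t ht i hi => lt_bd ht hi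
  refine not_dec hn hd (prim_par [] ⟨0, p0⟩ G).to_comp fun a => ?_
  obtain ⟨h1, h2⟩ := H (par [] ⟨0, p0⟩ a ++ G) fun t ht => by
    rcases List.mem_append.1 ht with ht | ht
    · simp only [par, List.mem_cons, List.not_mem_nil, or_false] at ht
      rcases ht with rfl | rfl | rfl <;> simp
    · have := len_aff (hG ▸ List.mem_map_of_mem (f := fun t : ℤ × List (Fin _) =>
        (t.1, t.2.map Fin.val)) ht)
      simpa using this
  constructor
  · intro ha
    obtain ⟨z, z0, hz⟩ := (h a).1 ha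
    refine h1 ⟨fun i => z i, ?_⟩
    rw [← Int.cast_inj (α := ℚ), cast_aeval, aeval_par, aeval_lift G fun i => z i, hG,
      (ev_aff _ _).2 hz]
    simp [z0]
  · intro e
    obtain ⟨y, hy⟩ := h2 e
    rw [aeval_par, aeval_lift', hG] at hy
    obtain ⟨b1, b2⟩ := (add_eq_zero_iff_of_nonneg (sq_nonneg _) (ev_sos_nonneg _ _)).1 hy
    refine (h a).2 _ ?_ ((ev_aff _ _).1 b2)
    simp only [dif_pos p0]
    simpa [sub_eq_zero] using b1

theorem formsN (hZ : ZDio) : ∃ N : ℕ, ¬ ∃ d : List (ℤ × List (Fin N)) → Bool,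
    Computable d ∧ ∀ F : List (ℤ × List (Fin N)), (∀ t ∈ F, t.2.length = 4) →
      (d F = true ↔ ∃ y : Fin N → ℤ, y ≠ 0 ∧ aeval y (poly N F) = 0) := by
  obtain ⟨p, hp, hn⟩ := nc
  obtain ⟨S, h⟩ := fam0 hZ hp
  have p1 : 0 < nv S := Nat.succ_pos _
  have p0 : 0 < nv S + 7 := by omega
  have p7 : 7 < nv S + 7 := by omega
  refine ⟨nv S + 7, ?_⟩
  rintro ⟨d, hd, H⟩
  obtain ⟨G, hG⟩ := exists_lift (n := nv S + 7) (F := frm S) fun t ht => (shape_frm ht).2
  refine not_dec hn hd (prim_par [⟨0, p0⟩] ⟨7, p7⟩ G).to_comp fun a => ?_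
  rw [H (par [⟨0, p0⟩] ⟨7, p7⟩ a ++ G) fun t ht => by
    rcases List.mem_append.1 ht with ht | ht
    · simp only [par, List.mem_cons, List.not_mem_nil, or_false] at ht
      rcases ht with rfl | rfl | rfl <;> simp
    · have := (shape_frm (hG ▸ List.mem_map_of_mem (f := fun t : ℤ × List (Fin _) =>
        (t.1, t.2.map Fin.val)) ht)).1
      simpa using this]
  constructor
  · intro ha
    obtain ⟨z, z0, hz⟩ := (h a).1 ha
    obtain ⟨y, y0, y7, hy⟩ := frm_of_sol hz
    refine ⟨fun i => y i, fun e => ?_, ?_⟩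
    · have : y 0 = 0 := congrFun e ⟨0, p0⟩
      omega
    · rw [← Int.cast_inj (α := ℚ), cast_aeval, aeval_par, aeval_lift G fun i => y i, hG, hy]
      simp [y0, y7, z0]
  · rintro ⟨y, y0, hy⟩
    obtain ⟨i, hi⟩ := Function.ne_iff.1 y0
    rw [← Int.cast_inj (α := ℚ), cast_aeval, aeval_par, aeval_lift', hG, Int.cast_zero] at hy
    obtain ⟨b1, b2⟩ := (add_eq_zero_iff_of_nonneg (sq_nonneg _) (ev_sos_nonneg _ _)).1 hy
    obtain ⟨c1, c2⟩ := sol_of_frm (S := S)
      (y := fun i => if h : i < nv S + 7 then y ⟨i, h⟩ else 0) ⟨i, i.2, by simpa using hi⟩ (by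
        rw [← b2]
        congr 1
        funext i
        split_ifs <;> simp)
    refine (h a).2 _ ?_ c2
    simp only [dif_pos p0, dif_pos p7, zero_add] at c1 ⊢
    have c3 : (y ⟨0, p0⟩ : ℚ) ≠ 0 := by exact_mod_cast c1
    rw [div_eq_iff c3]
    simp only [List.map_cons, List.map_nil, List.prod_cons, List.prod_nil, mul_one] at b1
    exact sub_eq_zero.1 ((mul_eq_zero.1 (pow_eq_zero_iff two_ne_zero |>.1 b1)).resolve_left c3)

theorem prim_code (n : ℕ) : Primrec (code n) :=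
  (Primrec.const n).pair (Primrec.list_map Primrec.id
    ((Primrec.fst.comp Primrec.snd).pair (Primrec.list_map (Primrec.snd.comp Primrec.snd)
      (Primrec.fin_val.comp Primrec.snd).to₂)).to₂)

theorem q1 (hZ : ZDio) : ¬ ∃ d : ℕ × List (ℤ × List ℕ) → Bool,
    Computable d ∧ ∀ (n : ℕ) (F : List (ℤ × List (Fin n))), 1 ≤ n →
      (d (code n F) = true ↔ ∃ y : Fin n → ℚ, aeval y (poly n F) = 0) := by
  rintro ⟨d, hd, H⟩
  obtain ⟨n, hn, h⟩ := insepN hZ
  refine h ⟨fun F => d (code n F), hd.comp (prim_code n).to_comp, fun F _ => ?_⟩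
  simp only [H n F hn]
  exact ⟨fun ⟨y, hy⟩ => ⟨fun i => y i, by rw [← cast_aeval, hy, Int.cast_zero]⟩, id⟩

theorem subrings (hZ : ZDio) (R : Subring ℚ) : ¬ ∃ d : ℕ × List (ℤ × List ℕ) → Bool,
    Computable d ∧ ∀ (n : ℕ) (F : List (ℤ × List (Fin n))), 1 ≤ n →
      (d (code n F) = true ↔ ∃ y : Fin n → R, aeval y (poly n F) = 0) := by
  rintro ⟨d, hd, H⟩
  obtain ⟨n, hn, h⟩ := insepN hZ
  refine h ⟨fun F => d (code n F), hd.comp (prim_code n).to_comp, fun F _ => ?_⟩
  simp only [H n F hn]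
  constructor
  · rintro ⟨y, hy⟩
    refine ⟨fun i => y i, Subtype.ext ?_⟩
    rw [coe_aeval]
    have := cast_aeval y (poly n F)
    rw [hy] at this
    simpa using this.symm
  · rintro ⟨y, hy⟩
    exact ⟨fun i => y i, by rw [← coe_aeval, hy]; rfl⟩

/-- the closure of the rational points of an irreducible hypersurface -/
theorem mazur (hZ : ZDio) : ∃ (n : ℕ) (g : MvPolynomial (Fin n) ℚ), Irreducible g ∧
    Infinite (ConnectedComponents (closure {x : Fin n → ℝ |
      ∃ y : Fin n → ℚ, eval y g = 0 ∧ ∀ i, x i = y i})) := by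
  classical
  obtain ⟨m, g, hg⟩ := hZ
  let f : MvPolynomial (Fin (m + 1)) ℚ :=
    map (Int.castRingHom ℚ) (rename (fun o : Option (Fin m) => o.elim 0 Fin.succ) g)
  have ef : ∀ y : Fin (m + 1) → ℚ, eval y f =
      aeval (fun o : Option (Fin m) => o.elim (y 0) fun i => y i.succ) g := fun y => by
    have : (fun o : Option (Fin m) => o.elim (y 0) fun i => y i.succ) =
        y ∘ fun o : Option (Fin m) => o.elim 0 Fin.succ := by
      funext o; cases o <;> rfl
    rw [this, ← aeval_rename]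
    simp only [f, eval_map]
    rfl
  have h1 : ∀ y, eval y f = 0 → ∃ n : ℤ, y 0 = n := fun y hy => (hg _).2 ⟨_, (ef y).symm.trans hy⟩
  have h2 : ∀ n : ℤ, ∃ y, eval y f = 0 ∧ y 0 = n := fun n => by
    obtain ⟨y, hy⟩ := (hg n).1 ⟨n, rfl⟩
    exact ⟨Fin.cons (n : ℚ) y, (ef _).trans hy, rfl⟩
  have f0 : f ≠ 0 := fun e => by
    obtain ⟨n, hn⟩ := h1 (fun _ => 1 / 2) (by rw [e, map_zero])
    have : (1 : ℚ) = 2 * n := by rw [← hn]; norm_num
    have : (1 : ℤ) = 2 * n := by exact_mod_cast this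
    omega
  obtain ⟨s, s1, u, s2⟩ := WfDvdMonoid.exists_factors f f0
  have h3 : ∀ y, eval y f = 0 ↔ ∃ q ∈ s, eval y q = 0 := fun y => by
    have : eval y (u : MvPolynomial (Fin (m + 1)) ℚ) ≠ 0 := (u.isUnit.map (eval y)).ne_zero
    rw [← s2, map_mul, mul_eq_zero, or_iff_left this, map_multiset_prod,
      Multiset.prod_eq_zero_iff, Multiset.mem_map]
  have h4 : ∃ q ∈ s, {n : ℤ | ∃ y, eval y q = 0 ∧ y 0 = n}.Infinite := by
    by_contra hc
    simp only [not_exists, not_and, Set.not_infinite] at hc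
    have := (s.finite_toSet.biUnion (t := fun q => {n : ℤ | ∃ y, eval y q = 0 ∧ y 0 = n})
      fun q hq => hc q hq)
    refine Set.infinite_univ (this.subset fun n _ => ?_)
    obtain ⟨y, a1, a2⟩ := h2 n
    obtain ⟨q, a3, a4⟩ := (h3 y).1 a1
    exact Set.mem_biUnion a3 ⟨y, a4, a2⟩
  obtain ⟨q, hq, hi⟩ := h4
  refine ⟨m + 1, q, s1 q hq, ?_⟩
  set V := {x : Fin (m + 1) → ℝ | ∃ y : Fin (m + 1) → ℚ, eval y q = 0 ∧ ∀ i, x i = y i}
  have hc : Continuous fun x : closure V => (x : Fin (m + 1) → ℝ) 0 :=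
    (continuous_apply 0).comp continuous_subtype_val
  have hV : ∀ x : closure V, ∃ n : ℤ, (n : ℝ) = (x : Fin (m + 1) → ℝ) 0 := fun x => by
    refine closure_minimal (t := (fun x : Fin (m + 1) → ℝ => x 0) ⁻¹' Set.range Int.cast) ?_
      (Int.isClosedEmbedding_coe_real.isClosed_range.preimage (continuous_apply 0)) x.2
    rintro x ⟨y, a1, a2⟩
    obtain ⟨n, hn⟩ := h1 y ((h3 y).2 ⟨q, hq, a1⟩)
    exact ⟨n, by simp [a2, hn]⟩
  choose φ hφ using hV
  have hφc : Continuous φ := by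
    rw [Int.isClosedEmbedding_coe_real.isEmbedding.continuous_iff]
    exact hc.congr fun x => (hφ x).symm
  by_contra hf
  rw [not_infinite_iff_finite] at hf
  refine hi ((Set.finite_range hφc.connectedComponentsLift).subset ?_)
  rintro n ⟨y, a1, a2⟩
  refine ⟨ConnectedComponents.mk ⟨fun i => y i, subset_closure ⟨y, a1, fun _ => rfl⟩⟩, ?_⟩
  rw [hφc.connectedComponentsLift_apply_coe, ← Int.cast_inj (α := ℝ), hφ]
  simp [a2]

end Vale.Agent.N027
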