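import Vale.Agent.P027M.Top.All
import Vale.Agent.N027.Mazur

/-! # P027 : Hilbert's tenth problem over the rationals and over all their subrings -/

namespace Vale.Agent.N027.OldAllForms

open MvPolynomial

/-- Integer polynomials are given as lists of terms; a term is a coefficient and the list of the
variables which are multiplied.
(1) No algorithm decides whether an integer polynomial has a rational zero;
(2) every polynomial is given by a list;
(3) the same holds for zeros in any subring of the rationals;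
(4) for some fixed number of variables and degree at most four no algorithm separates the
polynomials with an integral zero from those without a rational zero;
(5) for some fixed number of variables no algorithm decides whether a quartic form has a
nontrivial zero;
(6) no algorithm decides whether a system of equations `x + y = z`, `x y = z`, `x = 1` has a
rational solution;
(7) the set of polynomials with a rational zero is many-one complete among the recursively
enumerable sets;
(8) one polynomial of degree at most four defines the integers in the rationals and in each subring;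
(9) a set of rational vectors is Diophantine if and only if it is recursively enumerable;
(10) then one polynomial of degree at most four, with integral witnesses, works for all subrings;
(11) the closure of the rational points of some irreducible hypersurface in the real points has
infinitely many connected components. -/
theorem old :
    (¬ ∃ d : ℕ × List (ℤ × List ℕ) → Bool, Computable d ∧
      ∀ (n : ℕ) (F : List (ℤ × List (Fin n))), 1 ≤ n →
        (d (n, F.map fun t => (t.1, t.2.map Fin.val)) = true ↔ ∃ y : Fin n → ℚ,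
          aeval y ((F.map fun t => C t.1 * (t.2.map X).prod).sum : MvPolynomial (Fin n) ℤ) = 0)) ∧
    (∀ (n : ℕ) (f : MvPolynomial (Fin n) ℤ), ∃ F : List (ℤ × List (Fin n)),
      (F.map fun t => C t.1 * (t.2.map X).prod).sum = f) ∧
    (∀ R : Subring ℚ, ¬ ∃ d : ℕ × List (ℤ × List ℕ) → Bool, Computable d ∧
      ∀ (n : ℕ) (F : List (ℤ × List (Fin n))), 1 ≤ n →
        (d (n, F.map fun t => (t.1, t.2.map Fin.val)) = true ↔ ∃ y : Fin n → R,
          aeval y ((F.map fun t => C t.1 * (t.2.map X).prod).sum : MvPolynomial (Fin n) ℤ) = 0)) ∧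
    (∃ N : ℕ, 1 ≤ N ∧ ¬ ∃ d : List (ℤ × List (Fin N)) → Bool, Computable d ∧
      ∀ F : List (ℤ × List (Fin N)), (∀ t ∈ F, t.2.length ≤ 4) →
        ((∃ y : Fin N → ℤ, aeval y
          ((F.map fun t => C t.1 * (t.2.map X).prod).sum : MvPolynomial (Fin N) ℤ) = 0) →
            d F = true) ∧
        (d F = true → ∃ y : Fin N → ℚ, aeval y
          ((F.map fun t => C t.1 * (t.2.map X).prod).sum : MvPolynomial (Fin N) ℤ) = 0)) ∧
    (∃ N : ℕ, ¬ ∃ d : List (ℤ × List (Fin N)) → Bool, Computable d ∧
      ∀ F : List (ℤ × List (Fin N)), (∀ t ∈ F, t.2.length = 4) →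
        (d F = true ↔ ∃ y : Fin N → ℤ, y ≠ 0 ∧ aeval y
          ((F.map fun t => C t.1 * (t.2.map X).prod).sum : MvPolynomial (Fin N) ℤ) = 0)) ∧
    (¬ ∃ d : List (ℕ × ℕ × ℕ) × List (ℕ × ℕ × ℕ) × List ℕ → Bool, Computable d ∧
      ∀ (A M : List (ℕ × ℕ × ℕ)) (U : List ℕ), (d (A, M, U) = true ↔ ∃ x : ℕ → ℚ,
        (∀ e ∈ A, x e.1 + x e.2.1 = x e.2.2) ∧ (∀ e ∈ M, x e.1 * x e.2.1 = x e.2.2) ∧
          ∀ i ∈ U, x i = 1)) ∧
    (REPred (fun F : List (ℤ × List ℕ) =>
        ∃ y : ℕ → ℚ, (F.map fun t => (t.1 : ℚ) * (t.2.map y).prod).sum = 0) ∧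
      ∀ p : ℕ → Prop, REPred p → ManyOneReducible p fun F : List (ℤ × List ℕ) =>
        ∃ y : ℕ → ℚ, (F.map fun t => (t.1 : ℚ) * (t.2.map y).prod).sum = 0) ∧
    (∃ (m : ℕ) (g : MvPolynomial (Option (Fin m)) ℤ), g.totalDegree ≤ 4 ∧
      (∀ x : ℚ, (∃ n : ℤ, x = n) ↔
        ∃ y : Fin m → ℚ, aeval (fun o : Option (Fin m) => o.elim x y) g = 0) ∧
      ∀ (R : Subring ℚ) (x : R), (∃ n : ℤ, x = n) ↔
        ∃ y : Fin m → R, aeval (fun o : Option (Fin m) => o.elim x y) g = 0) ∧
    (∀ (k : ℕ) (A : Set (Fin k → ℚ)),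
      (∃ (m : ℕ) (g : MvPolynomial (Fin k ⊕ Fin m) ℤ),
        A = {x | ∃ y : Fin m → ℚ, aeval (Sum.elim x y) g = 0}) ↔ REPred fun x => x ∈ A) ∧
    (∀ (k : ℕ) (A : Set (Fin k → ℚ)), (REPred fun x => x ∈ A) →
      ∃ (m : ℕ) (g : MvPolynomial (Fin k ⊕ Fin m) ℤ), g.totalDegree ≤ 4 ∧
        (∀ x : Fin k → ℚ,
          (x ∈ A → ∃ y : Fin m → ℤ, aeval (Sum.elim x fun i => (y i : ℚ)) g = 0) ∧
          ((∃ y : Fin m → ℚ, aeval (Sum.elim x y) g = 0) → x ∈ A)) ∧
        ∀ (R : Subring ℚ) (x : Fin k → R), (fun i => (x i : ℚ)) ∈ A ↔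
          ∃ y : Fin m → R, aeval (Sum.elim x y) g = 0) ∧
    (∃ (n : ℕ) (g : MvPolynomial (Fin n) ℚ), Irreducible g ∧
      Infinite (ConnectedComponents (closure {x : Fin n → ℝ |
        ∃ y : Fin n → ℚ, eval y g = 0 ∧ ∀ i, x i = y i}))) :=
  have h : N027.ZDio := P027M.Top.neg0.1
  ⟨N027.q1 h, P027M.Fin.poly_surj, N027.subrings h, N027.insepN h, N027.formsN h,
    fun ⟨d, hd, H⟩ => N027.atomic h ⟨d, hd, fun S => H S.1 S.2.1 S.2.2⟩, N027.complete h,
    N027.int_sub h, N027.dprm_iff h, fun _ _ hA => N027.dprm4 h hA, N027.mazur h⟩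

end Vale.Agent.N027.OldAllForms
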